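import Vale.Agent.P267.H217.Kap
import Vale.Agent.P267.H217.Ode

/-!
# Leaf theorem: comparison of solutions with the collar coordinates
(items K2, K3, K4 of helper714's list)
-/

open Set Filter Metric
open scoped Topology Manifold ContDiff

noncomputable section

namespace Vale.Agent.P267.H217

open Vale.Agent.P267.FL Vale.Agent.P267.H759 Vale.Agent.P267.H714

/-! ### segments -/

theorem seg_low {a b p : ℂ} {s : ℝ} (ha : ‖a‖ = 1) (hb : s ≤ ‖b‖) (hs : 0 < s) (hs1 : s ≤ 1 / 4)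
    (hab : 0 ≤ a.re * b.re + a.im * b.im) (hp : p ∈ segment ℝ a b) : 24 / 25 * s ≤ ‖p‖ := by
  obtain ⟨u, v, hu, hv, huv, rfl⟩ := hp
  have h1 : ‖a‖ ^ 2 = a.re ^ 2 + a.im ^ 2 := by
    rw [Complex.sq_norm, Complex.normSq_apply]; ring
  have h2 : ‖b‖ ^ 2 = b.re ^ 2 + b.im ^ 2 := by
    rw [Complex.sq_norm, Complex.normSq_apply]; ring
  have h3 : ‖u • a + v • b‖ ^ 2 = (u * a.re + v * b.re) ^ 2 + (u * a.im + v * b.im) ^ 2 := by
    rw [Complex.sq_norm, Complex.normSq_apply]; simp; ring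
  have h4 : ‖u • a + v • b‖ ^ 2 = u ^ 2 * ‖a‖ ^ 2 + v ^ 2 * ‖b‖ ^ 2 +
      2 * (u * v) * (a.re * b.re + a.im * b.im) := by
    rw [h3, h1, h2]; ring
  have h5 : s ^ 2 ≤ ‖b‖ ^ 2 := pow_le_pow_left₀ hs.le hb 2
  have h6 : 0 ≤ (u * v) * (a.re * b.re + a.im * b.im) := mul_nonneg (mul_nonneg hu hv) hab
  have h7 : v ^ 2 * s ^ 2 ≤ v ^ 2 * ‖b‖ ^ 2 := mul_le_mul_of_nonneg_left h5 (sq_nonneg _)
  have h8 : (24 / 25 * s) ^ 2 ≤ ‖u • a + v • b‖ ^ 2 := by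
    rw [h4, ha]
    have hu' : u = 1 - v := by linarith
    have h9 : s ^ 2 ≤ 1 / 16 := by nlinarith
    have h10 : s ^ 2 ≤ (1 + s ^ 2) * (v ^ 2 * s ^ 2 + (1 - v) ^ 2) := by
      nlinarith [sq_nonneg ((1 + s ^ 2) * v - 1)]
    have h11 : (24 / 25 * s) ^ 2 ≤ v ^ 2 * s ^ 2 + (1 - v) ^ 2 := by
      have h12 : (1 + s ^ 2) * (24 / 25 * s) ^ 2 ≤ s ^ 2 := by
        nlinarith [sq_nonneg s]
      have h13 : 0 < 1 + s ^ 2 := by positivity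
      exact le_of_mul_le_mul_left (h12.trans h10) h13
    rw [hu']
    rw [hu'] at h6
    linarith
  exact le_of_sq_le_sq h8 (norm_nonneg _)

theorem seg_high {a b p : ℂ} {R : ℝ} (ha : ‖a‖ ≤ R) (hb : ‖b‖ ≤ R) (hp : p ∈ segment ℝ a b) :
    ‖p‖ ≤ R := by
  have h := (convex_closedBall (0 : ℂ) R).segment_subset (x := a) (y := b) (by simpa using ha)
    (by simpa using hb) hp
  simpa using h

variable {M : Type*} [TopologicalSpace M] [ChartedSpace C2 M]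

/-- `κ (c, T)` is holomorphic where `T` is -/
theorem mdiff_kappa {D : LeafIn M} {c : ℂ} {T : ℂ → ℂ} {z : ℂ}
    (hx : ![c, T z] ∈ cusp D.c₀ D.δ D.μ) (hT : DifferentiableAt ℂ T z) :
    MDifferentiableAt 𝓘(ℂ) 𝓘(ℂ, C2) (fun w => D.κ ![c, T w]) z := by
  have hder : DifferentiableAt ℂ (fun w => (![c, T w] : C2)) z := by
    rw [differentiableAt_pi]
    intro i
    fin_cases i
    · simp
    · simpa using hT
  exact mdiff_curve (hc_kch D) hder hx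

theorem diff_eta {D : LeafIn M} {c : ℂ} {U : Set ℂ}
    (hU : ∀ t ∈ U, ![c, t] ∈ cusp D.c₀ D.δ D.μ) :
    DifferentiableOn ℂ (fun t => 1 / D.η ![c, t]) U := by
  have h1 : DifferentiableOn ℂ (fun t => D.η ![c, t]) U := by
    refine D.η_hol.comp ?_ hU
    intro t _
    rw [differentiableWithinAt_pi]
    intro i
    fin_cases i
    · exact differentiableWithinAt_const _
    · exact differentiableWithinAt_id
  refine (differentiableOn_const 1).div h1 fun t ht => η_ne (hU t ht)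

theorem ode_unique {g : ℂ → ℂ} {U : Set ℂ} (hU : IsOpen U) (hg : DifferentiableOn ℂ g U)
    {T₁ T₂ : ℂ → ℂ} {z₀ : ℂ} (h₁ : ∀ᶠ z in 𝓝 z₀, HasDerivAt T₁ (g (T₁ z)) z)
    (h₂ : ∀ᶠ z in 𝓝 z₀, HasDerivAt T₂ (g (T₂ z)) z) (h0 : T₁ z₀ = T₂ z₀) (hm : T₁ z₀ ∈ U) :
    T₁ =ᶠ[𝓝 z₀] T₂ := by
  have h1 : ContDiffAt ℂ 1 g (T₁ z₀) := (hg.analyticAt (hU.mem_nhds hm)).contDiffAt
  obtain ⟨K, t, ht, hK⟩ := h1.exists_lipschitzOnWith (𝕂 := ℂ)
  exact ode_local_unique ht hK h₁ h₂ rfl h0.symm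

section

variable [IsManifold 𝓘(ℂ, C2) ω M] [T2Space M]

/-- one step of the comparison -/
theorem cmp_step {D : LeafIn M} {c : ℂ} {s ε : ℝ} (hs : 0 < s) (hs1 : s ≤ 1 / 4)
    (hG : ∀ t ∈ Ann s, ![c, t] ∈ cusp D.c₀ D.δ D.μ) 
    (hb : ∀ t ∈ Ann s, ‖1 / D.η ![c, t] - 1‖ ≤ ε) (hε : ε ≤ s / 100)
    {E : ℂ → M} (hE : MDifferentiableOn 𝓘(ℂ) 𝓘(ℂ, C2) E (ball 1 6)) {a b : ℂ}
    (ha : ‖a‖ = 1) (hbs : s ≤ ‖b‖) (hb5 : ‖b‖ < 5) (hab : 0 ≤ a.re * b.re + a.im * b.im)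
    {T₀ : ℂ → ℂ} (hTa : ‖T₀ a - a‖ ≤ s / 16)
    (h1 : ∀ᶠ z in 𝓝 a, E z = D.κ ![c, T₀ z] ∧ HasDerivAt T₀ (1 / D.η ![c, T₀ z]) z) :
    ∃ T : ℂ → ℂ, ‖T b - b‖ ≤ ‖T₀ a - a‖ + ε * (‖b - a‖ + s / 10) ∧
      ∀ᶠ w in 𝓝 b, T w ∈ Ann s ∧ E w = D.κ ![c, T w] ∧ HasDerivAt T (1 / D.η ![c, T w]) w := by
  set Q : Set ℂ := thickening (s / 10) (segment ℝ a b) ∩ ball 1 6 with hQdef
  have hs10 : 0 < s / 10 := by positivity
  have hQo : IsOpen Q := isOpen_thickening.inter isOpen_ball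
  have hQ : Convex ℝ Q := ((convex_segment a b).thickening _).inter (convex_ball _ _)
  have haQ : a ∈ Q := by
    refine ⟨self_subset_thickening hs10 _ (left_mem_segment ℝ a b), ?_⟩
    rw [mem_ball, dist_eq_norm]
    have := norm_sub_le a 1
    rw [ha, norm_one] at this
    linarith
  have hbQ : b ∈ Q := by
    refine ⟨self_subset_thickening hs10 _ (right_mem_segment ℝ a b), ?_⟩
    rw [mem_ball, dist_eq_norm]
    have := norm_sub_le b 1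
    rw [norm_one] at this
    linarith
  have hba : ‖b - a‖ ≤ 6 := by
    have := norm_sub_le b a
    rw [ha] at this
    linarith
  have hnear : ∀ z ∈ Q, ∃ p ∈ segment ℝ a b, ‖z - p‖ < s / 10 := by
    intro z hz
    obtain ⟨p, hp, hzp⟩ := mem_thickening_iff.1 hz.1
    exact ⟨p, hp, by rwa [dist_eq_norm] at hzp⟩
  have hρ : ∀ z ∈ Q, ‖z - a‖ ≤ ‖b - a‖ + s / 10 := by
    intro z hz
    obtain ⟨p, hp, hzp⟩ := hnear z hz
    have h2 : ‖p - a‖ ≤ ‖b - a‖ := norm_sub_le_of_mem_segment hp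
    have h3 : ‖z - a‖ ≤ ‖z - p‖ + ‖p - a‖ := norm_sub_le_norm_sub_add_norm_sub z p a
    linarith
  have hQs : ∀ z ∈ Q, 17 / 20 * s ≤ ‖z‖ ∧ ‖z‖ ≤ 11 / 2 := by
    intro z hz
    obtain ⟨p, hp, hzp⟩ := hnear z hz
    have h2 := seg_low ha hbs hs hs1 hab hp
    have h3 : ‖p‖ ≤ 5 := seg_high (by rw [ha]; norm_num) hb5.le hp
    have h4 : ‖p‖ ≤ ‖z - p‖ + ‖z‖ := by
      have := norm_sub_le z (z - p)
      rw [sub_sub_cancel] at this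
      linarith
    have h5 : ‖z‖ ≤ ‖z - p‖ + ‖p‖ := by simpa using norm_add_le (z - p) p
    constructor <;> linarith
  obtain ⟨T, hTa0, hT⟩ := ode_near_id (g := fun t => 1 / D.η ![c, t]) hs (by linarith)
    (diff_eta hG) hb hε hQo hQ haQ hρ (by linarith) hQs hTa
  have hTQ : ∀ z ∈ Q, ![c, T z] ∈ cusp D.c₀ D.δ D.μ := fun z hz => hG _ (hT z hz).1
  have heq : T₀ =ᶠ[𝓝 a] T := by
    refine ode_unique (isOpen_Ann s) (diff_eta hG) (h1.mono fun z hz => hz.2) ?_ hTa0.symm ?_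
    · filter_upwards [hQo.mem_nhds haQ] with z hz
      exact (hT z hz).2.2
    · rw [← hTa0]; exact (hT a haQ).1
  have hEa : E =ᶠ[𝓝 a] fun z => D.κ ![c, T z] := by
    filter_upwards [h1, heq] with z hz hz'
    rw [hz.1, hz']
  have hEQ : EqOn E (fun z => D.κ ![c, T z]) Q := by
    refine eqOn_of_eventuallyEq hQo hQ.isPreconnected (hE.mono inter_subset_right) ?_ haQ hEa
    intro z hz
    exact (mdiff_kappa (hTQ z hz) (hT z hz).2.2.differentiableAt).mdifferentiableWithinAt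
  refine ⟨T, (hT b hbQ).2.1, ?_⟩
  filter_upwards [hQo.mem_nhds hbQ] with w hw
  exact ⟨(hT w hw).1, hEQ hw, (hT w hw).2.2⟩

/-- (K3, general form) comparison on `s < ‖z‖ < 5` -/
theorem compare_gen {D : LeafIn M} {c : ℂ} {s ε : ℝ} (hs : 0 < s) (hs1 : s ≤ 1 / 4)
    (hG : ∀ t ∈ Ann s, ![c, t] ∈ cusp D.c₀ D.δ D.μ)
    (hb : ∀ t ∈ Ann s, ‖1 / D.η ![c, t] - 1‖ ≤ ε) (hε : ε ≤ s / 100)
    {E : ℂ → M} (hE : MDifferentiableOn 𝓘(ℂ) 𝓘(ℂ, C2) E (ball 1 6)) {T₀ : ℂ → ℂ}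
    (h0 : T₀ 1 = 1)
    (h1 : ∀ᶠ z in 𝓝 1, E z = D.κ ![c, T₀ z] ∧ HasDerivAt T₀ (1 / D.η ![c, T₀ z]) z)
    {z : ℂ} (hz : s ≤ ‖z‖) (hz5 : ‖z‖ < 5) :
    ∃ T : ℂ → ℂ, ‖T z - z‖ ≤ 9 * ε ∧
      ∀ᶠ w in 𝓝 z, T w ∈ Ann s ∧ E w = D.κ ![c, T w] ∧ HasDerivAt T (1 / D.η ![c, T w]) w := by
  have hε0 : 0 ≤ ε := by
    refine (norm_nonneg _).trans (hb 1 ?_)
    constructor <;> rw [norm_one] <;> linarith
  obtain ⟨σ, hσ, hσ1⟩ : ∃ σ : ℂ, (σ = Complex.I ∨ σ = -Complex.I) ∧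
      0 ≤ σ.re * z.re + σ.im * z.im := by
    rcases le_total 0 z.im with h | h
    · exact ⟨Complex.I, Or.inl rfl, by simpa using h⟩
    · exact ⟨-Complex.I, Or.inr rfl, by simpa using h⟩
  have hσn : ‖σ‖ = 1 := by rcases hσ with rfl | rfl <;> simp
  have hσre : σ.re = 0 := by rcases hσ with rfl | rfl <;> simp
  have hσ2 : ‖σ - 1‖ ≤ 2 := by
    have := norm_sub_le σ 1
    rw [hσn, norm_one] at this
    linarith
  obtain ⟨T₁, hT1, hT1'⟩ := cmp_step hs hs1 hG hb hε hE (a := 1) (b := σ) (by simp)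
    (by rw [hσn]; linarith) (by rw [hσn]; norm_num) (by simp [hσre]) (T₀ := T₀)
    (by rw [h0]; simp; positivity) h1
  rw [h0, sub_self, norm_zero, zero_add] at hT1
  have hT1b : ‖T₁ σ - σ‖ ≤ ε * (21 / 10) := by
    refine hT1.trans (mul_le_mul_of_nonneg_left (by linarith) hε0)
  obtain ⟨T₂, hT2, hT2'⟩ := cmp_step hs hs1 hG hb hε hE (a := σ) (b := z) hσn hz hz5 hσ1
    (T₀ := T₁) (by nlinarith) (hT1'.mono fun w hw => hw.2)
  refine ⟨T₂, ?_, hT2'⟩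
  have h3 : ‖z - σ‖ ≤ 6 := by
    have := norm_sub_le z σ
    rw [hσn] at this
    linarith
  have h4 : ε * (‖z - σ‖ + s / 10) ≤ ε * (61 / 10) :=
    mul_le_mul_of_nonneg_left (by linarith) hε0
  linarith

omit [IsManifold 𝓘(ℂ, C2) ω M] [T2Space M] in
theorem inv_eta {D : LeafIn M} {x : C2} (hx : x ∈ cusp D.c₀ D.δ D.μ) :
    ‖1 / D.η x - 1‖ ≤ 1 / 999 := by
  have h1 := D.η_close x hx
  have h2 := η_ne hx
  have h3 : 999 / 1000 ≤ ‖D.η x‖ := by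
    have : ‖(1 : ℂ)‖ ≤ ‖D.η x‖ + ‖D.η x - 1‖ := by
      have := norm_sub_le (D.η x) (D.η x - 1)
      simpa using this
    rw [norm_one] at this
    linarith
  have h4 : 1 / D.η x - 1 = -(D.η x - 1) / D.η x := by field_simp; ring
  rw [h4, norm_div, norm_neg, div_le_iff₀ (by linarith)]
  linarith

/-- (K3) -/
theorem compare {D : LeafIn M} {c : ℂ} (hc : ‖c‖ < D.c₀) {E : ℂ → M}
    (hE : MDifferentiableOn 𝓘(ℂ) 𝓘(ℂ, C2) E (ball 1 6)) {T₀ : ℂ → ℂ} (h0 : T₀ 1 = 1)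
    (h1 : ∀ᶠ z in 𝓝 1, E z = D.κ ![c, T₀ z] ∧ HasDerivAt T₀ (1 / D.η ![c, T₀ z]) z) :
    ∃ T : ℂ → ℂ, ∀ z, 6 / 25 ≤ ‖z‖ → ‖z‖ < 5 → ![c, T z] ∈ cusp D.c₀ D.δ D.μ ∧
      E z = D.κ ![c, T z] ∧ ‖T z - z‖ ≤ 1 / 100 ∧ HasDerivAt T (1 / D.η ![c, T z]) z := by
  have hG : ∀ t ∈ Ann (6 / 25), ![c, t] ∈ cusp D.c₀ D.δ D.μ := by
    intro t ht
    refine mem_cusp (by simpa using hc) ?_ (by have := ht.2; simp; linarith)
    have := ht.1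
    simp only [Matrix.cons_val_one, Matrix.cons_val_fin_one]
    linarith
  refine ⟨fun z => D.κi (E z) 1, fun z hz hz5 => ?_⟩
  obtain ⟨T, hT, hT'⟩ := compare_gen (s := 6 / 25) (ε := 1 / 999) (by norm_num) (by norm_num) hG
    (fun t ht => inv_eta (hG t ht)) (by norm_num) hE h0 h1 hz hz5
  have heq : (fun z => D.κi (E z) 1) =ᶠ[𝓝 z] T := by
    filter_upwards [hT'] with w hw
    show D.κi (E w) 1 = T w
    rw [hw.2.1, D.κi_κ _ (hG _ hw.1)]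
    rfl
  have h2 := hT'.self_of_nhds
  have h3 : D.κi (E z) 1 = T z := heq.self_of_nhds
  refine ⟨?_, ?_, ?_, ?_⟩
  · simp only [h3]; exact hG _ h2.1
  · simp only [h3]; exact h2.2.1
  · simp only [h3]; linarith
  · simp only [h3]
    exact h2.2.2.congr_of_eventuallyEq heq

end

end Vale.Agent.P267.H217
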