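import Vale.Agent.P267.H217.LInj

/-!
# Leaf theorem: surjectivity of the comparison (K5), comparison near the zero fibre (K3')
-/

open Set Filter Metric
open scoped Topology Manifold ContDiff

noncomputable section

namespace Vale.Agent.P267.H217

open Vale.Agent.P267.FL Vale.Agent.P267.H759 Vale.Agent.P267.H714

/-- perturbations of the identity are locally onto -/
theorem exists_preimage {T : ℂ → ℂ} {t : ℂ} {r : ℝ} (hr : 0 ≤ r)
    (h1 : ∀ z ∈ closedBall t r, ‖T z - z‖ ≤ r)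
    (h2 : ∀ z ∈ closedBall t r, ∃ v : ℂ, HasDerivAt T v z ∧ ‖v - 1‖ ≤ 1 / 2) :
    ∃ z ∈ closedBall t r, T z = t := by
  set f : ℂ → ℂ := fun z => t - (T z - z) with hf
  have hmap : MapsTo f (closedBall t r) (closedBall t r) := by
    intro z hz
    rw [mem_closedBall, dist_eq_norm]
    have h3 : f z - t = -(T z - z) := by rw [hf]; ring
    rw [h3, norm_neg]
    exact h1 z hz
  have hlip : ContractingWith (1 / 2 : NNReal) (hmap.restrict f (closedBall t r) (closedBall t r)) := by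
    refine ⟨by rw [div_lt_iff₀ (by norm_num)]; norm_num, ?_⟩
    rw [lipschitzWith_iff_dist_le_mul]
    rintro ⟨x, hx⟩ ⟨y, hy⟩
    show dist (f x) (f y) ≤ _ * dist x y
    choose! v hv hv1 using h2
    have h3 := (convex_closedBall t r).norm_image_sub_le_of_norm_hasDerivWithin_le
      (f := fun z => T z - z) (f' := fun z => v z - 1) (C := 1 / 2)
      (fun z hz => ((hv z hz).sub (hasDerivAt_id z)).hasDerivWithinAt)
      (fun z hz => hv1 z hz) hx hy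
    rw [dist_eq_norm, dist_eq_norm]
    have h4 : f x - f y = (T y - y) - (T x - x) := by rw [hf]; ring
    rw [h4, ← norm_neg (x - y), neg_sub]
    simpa using h3
  obtain ⟨z, hz, hfz, -⟩ := ContractingWith.exists_fixedPoint' isClosed_closedBall.isComplete hmap
    hlip (mem_closedBall_self hr) (edist_ne_top _ _)
  refine ⟨z, hz, ?_⟩
  have h3 : t - (T z - z) = z := hfz
  linear_combination -h3

variable {M : Type*} [TopologicalSpace M] [ChartedSpace C2 M] [IsManifold 𝓘(ℂ, C2) ω M] [T2Space M]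

/-- (K5) surjectivity of the comparison -/
theorem compare_surj {D : LeafIn M} {c : ℂ} (hc : ‖c‖ < D.c₀) {E : ℂ → M}
    (hE : MDifferentiableOn 𝓘(ℂ) 𝓘(ℂ, C2) E (ball 1 6)) {T₀ : ℂ → ℂ} (h0 : T₀ 1 = 1)
    (h1 : ∀ᶠ z in 𝓝 1, E z = D.κ ![c, T₀ z] ∧ HasDerivAt T₀ (1 / D.η ![c, T₀ z]) z) {t : ℂ}
    (ht : 7 / 20 ≤ ‖t‖) (ht' : ‖t‖ ≤ 49 / 10) :
    ∃ z : ℂ, ‖z - t‖ ≤ 1 / 100 ∧ E z = D.κ ![c, t] := by
  obtain ⟨T, hT⟩ := compare hc hE h0 h1
  have hr : ∀ z ∈ closedBall t (1 / 100), 6 / 25 ≤ ‖z‖ ∧ ‖z‖ < 5 := by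
    intro z hz
    rw [mem_closedBall, dist_eq_norm] at hz
    have h2 : ‖t‖ ≤ ‖z‖ + ‖z - t‖ := by
      have := norm_sub_le z (z - t)
      rwa [sub_sub_cancel] at this
    have h3 : ‖z‖ ≤ ‖z - t‖ + ‖t‖ := by simpa using norm_add_le (z - t) t
    constructor <;> linarith
  obtain ⟨z, hz, hzt⟩ := exists_preimage (T := T) (t := t) (r := 1 / 100) (by norm_num)
    (fun z hz => (hT z (hr z hz).1 (hr z hz).2).2.2.1)
    (fun z hz => ⟨_, (hT z (hr z hz).1 (hr z hz).2).2.2.2,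
      (inv_eta (hT z (hr z hz).1 (hr z hz).2).1).trans (by norm_num)⟩)
  refine ⟨z, by rwa [mem_closedBall, dist_eq_norm] at hz, ?_⟩
  rw [(hT z (hr z hz).1 (hr z hz).2).2.1, hzt]

omit [IsManifold 𝓘(ℂ, C2) ω M] [T2Space M] in
/-- `η` is close to `1` near the zero fibre -/
theorem eta_zero (D : LeafIn M) {s ε : ℝ} (hs : 0 < s) (hε : 0 < ε) :
    ∃ c' > 0, ∀ c : ℂ, ‖c‖ < c' → ∀ t ∈ Ann s, ![c, t] ∈ cusp D.c₀ D.δ D.μ ∧
      ‖1 / D.η ![c, t] - 1‖ ≤ ε := by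
  set K : Set ℂ := {t | 11 / 20 * s ≤ ‖t‖} ∩ closedBall 0 6 with hK
  have hKc : IsCompact K :=
    (isCompact_closedBall (0 : ℂ) 6).inter_left (isClosed_le continuous_const continuous_norm)
  have hev : ∀ t ∈ K, ∀ᶠ p : ℂ × ℂ in 𝓝 ((0 : ℂ), t), ![p.1, p.2] ∈ cusp D.c₀ D.δ D.μ ∧
      ‖1 / D.η ![p.1, p.2] - 1‖ ≤ ε := by
    rintro t ⟨ht1, ht2⟩
    rw [mem_closedBall, dist_zero_right] at ht2
    have ht0 : 0 < ‖t‖ := lt_of_lt_of_le (by positivity) ht1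
    have hx : (![0, t] : C2) ∈ cusp D.c₀ D.δ D.μ := by
      refine ⟨by simpa using D.c₀_pos, by simpa using ht0, by simp; linarith, ?_⟩
      simp only [Matrix.cons_val_zero, norm_zero, Matrix.cons_val_one, Matrix.cons_val_fin_one]
      exact mul_pos D.δ_pos (pow_pos ht0 _)
    have hc : Continuous fun p : ℂ × ℂ => (![p.1, p.2] : C2) := by
      refine continuous_pi fun i => ?_
      fin_cases i
      · exact continuous_fst
      · exact continuous_snd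
    have h1 : ∀ᶠ p : ℂ × ℂ in 𝓝 ((0 : ℂ), t), ![p.1, p.2] ∈ cusp D.c₀ D.δ D.μ :=
      hc.continuousAt.eventually ((isOpen_cusp _ _ _).mem_nhds hx)
    have hη : ContinuousAt D.η (![0, t] : C2) :=
      (D.η_hol.continuousOn).continuousAt ((isOpen_cusp _ _ _).mem_nhds hx)
    have h2 : ContinuousAt (fun x : C2 => ‖1 / D.η x - 1‖) (![0, t] : C2) :=
      ((continuousAt_const.div hη (η_ne hx)).sub continuousAt_const).norm
    have h3 : ‖1 / D.η (![0, t] : C2) - 1‖ < ε := by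
      rw [D.η_zero _ hx rfl]
      simpa using hε
    have h4 : ContinuousAt (fun p : ℂ × ℂ => ‖1 / D.η (![p.1, p.2] : C2) - 1‖) ((0 : ℂ), t) :=
      ContinuousAt.comp (f := fun p : ℂ × ℂ => (![p.1, p.2] : C2))
        (g := fun x : C2 => ‖1 / D.η x - 1‖) (x := ((0 : ℂ), t)) h2 hc.continuousAt
    have h5 : ∀ᶠ p : ℂ × ℂ in 𝓝 ((0 : ℂ), t), ‖1 / D.η (![p.1, p.2] : C2) - 1‖ < ε :=
      h4.eventually (gt_mem_nhds h3)
    filter_upwards [h1, h5] with p h6 h7 using ⟨h6, h7.le⟩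
  have h := hKc.eventually_forall_of_forall_eventually
    (P := fun c t => ![c, t] ∈ cusp D.c₀ D.δ D.μ ∧ ‖1 / D.η ![c, t] - 1‖ ≤ ε) hev
  obtain ⟨c', hc', h2⟩ := Metric.eventually_nhds_iff.1 h
  refine ⟨c', hc', fun c hc t ht => h2 (by rwa [dist_zero_right]) t ⟨ht.1.le, ?_⟩⟩
  rw [mem_closedBall, dist_zero_right]
  exact ht.2.le

/-- (K3') comparison near the zero fibre -/
theorem compare_zero (D : LeafIn M) {s ε : ℝ} (hs : 0 < s) (hs1 : s ≤ 1 / 4) (hε : 0 < ε) :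
    ∃ c' > 0, ∀ c : ℂ, ‖c‖ < c' → (∀ t ∈ Ann s, ![c, t] ∈ cusp D.c₀ D.δ D.μ) ∧
      ∀ E : ℂ → M, MDifferentiableOn 𝓘(ℂ) 𝓘(ℂ, C2) E (ball 1 6) → ∀ T₀ : ℂ → ℂ, T₀ 1 = 1 →
      (∀ᶠ z in 𝓝 1, E z = D.κ ![c, T₀ z] ∧ HasDerivAt T₀ (1 / D.η ![c, T₀ z]) z) →
      ∃ T : ℂ → ℂ, ∀ z, s ≤ ‖z‖ → ‖z‖ < 5 → T z ∈ Ann s ∧ ![c, T z] ∈ cusp D.c₀ D.δ D.μ ∧
        E z = D.κ ![c, T z] ∧ ‖T z - z‖ ≤ ε ∧ HasDerivAt T (1 / D.η ![c, T z]) z := by
  obtain ⟨c', hc', h⟩ := eta_zero D (s := s) (ε := min (s / 100) (ε / 9)) hs (by positivity)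
  refine ⟨c', hc', fun c hc => ⟨fun t ht => (h c hc t ht).1, fun E hE T₀ h0 h1 => ?_⟩⟩
  have hG : ∀ t ∈ Ann s, ![c, t] ∈ cusp D.c₀ D.δ D.μ := fun t ht => (h c hc t ht).1
  refine ⟨fun z => D.κi (E z) 1, fun z hz hz5 => ?_⟩
  obtain ⟨T, hT, hT'⟩ := compare_gen (s := s) (ε := min (s / 100) (ε / 9)) hs hs1 hG
    (fun t ht => (h c hc t ht).2) (min_le_left _ _) hE h0 h1 hz hz5
  have heq : (fun z => D.κi (E z) 1) =ᶠ[𝓝 z] T := by
    filter_upwards [hT'] with w hw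
    show D.κi (E w) 1 = T w
    rw [hw.2.1, D.κi_κ _ (hG _ hw.1)]
    rfl
  have h2 := hT'.self_of_nhds
  have h3 : D.κi (E z) 1 = T z := heq.self_of_nhds
  have h4 : 9 * min (s / 100) (ε / 9) ≤ ε := by
    have := min_le_right (s / 100) (ε / 9)
    linarith
  refine ⟨?_, ?_, ?_, ?_, ?_⟩
  · simp only [h3]; exact h2.1
  · simp only [h3]; exact hG _ h2.1
  · simp only [h3]; exact h2.2.1
  · simp only [h3]; exact hT.trans h4
  · simp only [h3]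
    exact h2.2.2.congr_of_eventuallyEq heq

end Vale.Agent.P267.H217
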