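import Vale.Agent.P267.H714.Sol

/-!
# Leaf theorem: the collar chart `κ`, unit speed solutions inside the collar
(items K0, K1 of helper714's list)
-/

open Set Filter Metric
open scoped Topology Manifold ContDiff

noncomputable section

namespace Vale.Agent.P267.H217

open Vale.Agent.P267.FL Vale.Agent.P267.H759 Vale.Agent.P267.H714

variable {M : Type*} [TopologicalSpace M] [ChartedSpace C2 M]

theorem isOpen_cusp (c₀ δ : ℝ) (μ : ℕ) : IsOpen (cusp c₀ δ μ) := by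
  have h0 : Continuous fun x : C2 => ‖x 0‖ := (continuous_apply 0).norm
  have h1 : Continuous fun x : C2 => ‖x 1‖ := (continuous_apply 1).norm
  have e : cusp c₀ δ μ = {x : C2 | ‖x 0‖ < c₀} ∩ ({x | 0 < ‖x 1‖} ∩ ({x | ‖x 1‖ < 8} ∩
      {x | ‖x 0‖ < δ * ‖x 1‖ ^ μ})) := by
    ext x; simp [cusp]
  rw [e]
  exact (isOpen_lt h0 continuous_const).inter ((isOpen_lt continuous_const h1).inter
    ((isOpen_lt h1 continuous_const).inter (isOpen_lt h0 (continuous_const.mul (h1.pow μ)))))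

/-- in the wide collar the cusp condition is automatic -/
theorem mem_cusp {D : LeafIn M} {x : C2} (h0 : ‖x 0‖ < D.c₀) (h1 : 1 / 8 ≤ ‖x 1‖)
    (h2 : ‖x 1‖ < 8) : x ∈ cusp D.c₀ D.δ D.μ := by
  refine ⟨h0, by linarith, h2, h0.trans (D.c₀_lt.trans_le ?_)⟩
  exact mul_le_mul_of_nonneg_left (pow_le_pow_left₀ (by norm_num) h1 _) D.δ_pos.le

/-- the collar chart (K0) -/
def kch (D : LeafIn M) : Ch M where
  toFun := D.κi
  invFun := D.κ
  source := D.κ '' cusp D.c₀ D.δ D.μ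
  target := cusp D.c₀ D.δ D.μ
  map_source' := by rintro _ ⟨x, hx, rfl⟩; rw [D.κi_κ x hx]; exact hx
  map_target' := fun x hx => mem_image_of_mem _ hx
  left_inv' := by rintro _ ⟨x, hx, rfl⟩; rw [D.κi_κ x hx]
  right_inv' := fun x hx => D.κi_κ x hx
  open_source := D.κ_open
  open_target := isOpen_cusp _ _ _
  continuousOn_toFun := D.κi_hol.continuousOn
  continuousOn_invFun := D.κ_hol.continuousOn

theorem kch_apply (D : LeafIn M) (y : M) : kch D y = D.κi y := rfl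

theorem kch_symm_apply (D : LeafIn M) (x : C2) : (kch D).symm x = D.κ x := rfl

theorem kch_source (D : LeafIn M) : (kch D).source = D.κ '' cusp D.c₀ D.δ D.μ := rfl

theorem kch_target (D : LeafIn M) : (kch D).target = cusp D.c₀ D.δ D.μ := rfl

theorem hc_kch (D : LeafIn M) : HC (kch D) := ⟨D.κi_hol, D.κ_hol⟩

theorem kch_mem {D : LeafIn M} {x : C2} (hx : x ∈ cusp D.c₀ D.δ D.μ) : D.κ x ∈ (kch D).source :=
  mem_image_of_mem _ hx

theorem Ge_kch {D : LeafIn M} {x : C2} (hx : x ∈ cusp D.c₀ D.δ D.μ) :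
    Ge D (kch D) (D.κ x) = ‖D.η x‖ := by
  rw [← D.κ_G x hx]
  unfold Ge tr jacκ
  rw [kch_apply, D.κi_κ x hx]
  rfl

theorem dzz_kch {D : LeafIn M} {x : C2} (hx : x ∈ cusp D.c₀ D.δ D.μ) (u : C2) :
    dzz D (kch D) (D.κ x) u = D.m * x 0 ^ (D.m - 1) * u 0 := by
  have h1 : HasFDerivAt (fun y : C2 => y 0 ^ D.m)
      ((D.m * x 0 ^ (D.m - 1)) • (ContinuousLinearMap.proj (R := ℂ) (φ := fun _ : Fin 2 => ℂ) 0)) x := by
    have h2 : HasFDerivAt (fun y : C2 => y 0)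
        (ContinuousLinearMap.proj (R := ℂ) (φ := fun _ : Fin 2 => ℂ) 0) x :=
      (ContinuousLinearMap.proj (R := ℂ) (φ := fun _ : Fin 2 => ℂ) 0).hasFDerivAt
    have h3 := h2.pow D.m
    rw [nsmul_eq_mul] at h3
    exact h3
  have h3 : HasFDerivAt (fun y : C2 => D.zz (D.κ y))
      ((D.m * x 0 ^ (D.m - 1)) • (ContinuousLinearMap.proj (R := ℂ) (φ := fun _ : Fin 2 => ℂ) 0)) x := by
    refine h1.congr_of_eventuallyEq ?_
    filter_upwards [(isOpen_cusp _ _ _).mem_nhds hx] with y hy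
    exact D.κ_zz y hy
  unfold dzz
  rw [kch_apply, D.κi_κ x hx]
  have h4 : (fun x' : C2 => D.zz ((kch D).symm x')) = fun y : C2 => D.zz (D.κ y) := rfl
  rw [h4, h3.fderiv]
  simp

/-- the leaf constant -/
def rho (D : LeafIn M) (c : ℂ) : ℝ := D.m * ‖c‖ ^ (D.m - 1)

theorem rho_pos (D : LeafIn M) {c : ℂ} (hc : c ≠ 0) : 0 < rho D c :=
  mul_pos (by exact_mod_cast D.m_pos) (pow_pos (norm_pos_iff.2 hc) _)

theorem η_ne {D : LeafIn M} {x : C2} (hx : x ∈ cusp D.c₀ D.δ D.μ) : D.η x ≠ 0 := by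
  intro h
  have := D.η_close x hx
  rw [h] at this
  norm_num at this

section

variable [IsManifold 𝓘(ℂ, C2) ω M]

/-- (K1) `κ(c, T)` is a solution iff `T' η = 1` in absolute value -/
theorem sol_kappa {D : LeafIn M} {c : ℂ} (hc : c ≠ 0) {T : ℂ → ℂ} {v z : ℂ}
    (hx : ![c, T z] ∈ cusp D.c₀ D.δ D.μ) (hT : HasDerivAt T v z)
    (hv : ‖v‖ * ‖D.η ![c, T z]‖ = 1) : SolAt D (rho D c) (fun w => D.κ ![c, T w]) z := by
  set x : C2 := ![c, T z] with hxdef
  have hder : HasDerivAt (fun w => (![c, T w] : C2)) (![0, v] : C2) z := by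
    rw [hasDerivAt_pi]
    intro i
    fin_cases i
    · simpa using hasDerivAt_const z c
    · simpa using hT
  have hmem : (kch D).source ∈ 𝓝 (D.κ x) := (kch D).open_source.mem_nhds (kch_mem hx)
  have hdiff : MDifferentiableAt 𝓘(ℂ) 𝓘(ℂ, C2) (fun w => D.κ ![c, T w]) z :=
    mdiff_curve (hc_kch D) hder.differentiableAt hx
  refine solAt_of_chart (e := kch D) (hc_kch D) (D.κ_mem x hx) (kch_mem hx) hdiff ?_ ?_
  · intro h0
    have h1 := congrArg (fun A : C2 →L[ℂ] ℂ => A (Pi.single 0 1)) h0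
    rw [dzz_kch hx] at h1
    have h2 : (D.m : ℂ) ≠ 0 := by exact_mod_cast D.m_pos.ne'
    have h3 : x 0 = c := rfl
    rw [h3] at h1
    simp [h2, hc] at h1
  · intro u
    have h1 : deriv (fun w => (kch D) (D.κ ![c, T w])) z = (![0, v] : C2) := by
      refine HasDerivAt.deriv (hder.congr_of_eventuallyEq ?_)
      have h2 : ∀ᶠ w in 𝓝 z, (![c, T w] : C2) ∈ cusp D.c₀ D.δ D.μ :=
        hder.continuousAt.eventually ((isOpen_cusp _ _ _).mem_nhds hx)
      filter_upwards [h2] with w hw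
      rw [kch_apply, D.κi_κ _ hw]
    show Ge D (kch D) (D.κ x) * ‖wd (deriv (fun w => (kch D) (D.κ ![c, T w])) z) u‖ * rho D c =
      ‖dzz D (kch D) (D.κ x) u‖
    rw [h1, dzz_kch hx, Ge_kch hx]
    have h4 : wd (![0, v] : C2) u = -(v * u 0) := by simp [wd]
    have h3 : x 0 = c := rfl
    rw [h4, norm_neg, norm_mul, norm_mul, norm_mul, norm_pow, h3, rho]
    rw [Complex.norm_natCast]
    linear_combination (‖u 0‖ * (D.m * ‖c‖ ^ (D.m - 1))) * hv

/-- (K1') a solution inside the collar -/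
theorem kappa_of_sol {D : LeafIn M} {c : ℂ} (hc : c ≠ 0) {E : ℂ → M} {z : ℂ}
    (h : SolAt D (rho D c) E z) {x : C2} (hx : x ∈ cusp D.c₀ D.δ D.μ) (hE : E z = D.κ x)
    (hxc : ‖x 0‖ = ‖c‖) :
    HasDerivAt (fun w => D.κi (E w) 0) 0 z ∧
      ∃ v : ℂ, HasDerivAt (fun w => D.κi (E w) 1) v z ∧ ‖v‖ * ‖D.η x‖ = 1 := by
  have hy : E z ∈ (kch D).source := by rw [hE]; exact kch_mem hx
  have hd : DifferentiableAt ℂ (fun w => (kch D) (E w)) z := diff_curve (hc_kch D) h.diff hy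
  have hd' := hd.hasDerivAt
  set v : C2 := deriv (fun w => (kch D) (E w)) z with hv
  have hue := h.ue' (hc_kch D) hy
  rw [← hv] at hue
  have key : ∀ u : C2, ‖D.η x‖ * ‖wd v u‖ = ‖u 0‖ := by
    intro u
    have h1 := hue u
    rw [hE, dzz_kch hx, Ge_kch hx, norm_mul, norm_mul, norm_pow, hxc, Complex.norm_natCast] at h1
    have h2 := rho_pos D hc
    unfold rho at h1 h2
    have h3 : (D.m * ‖c‖ ^ (D.m - 1)) * (‖D.η x‖ * ‖wd v u‖) = (D.m * ‖c‖ ^ (D.m - 1)) * ‖u 0‖ := by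
      linear_combination h1
    exact mul_left_cancel₀ h2.ne' h3
  have hη : ‖D.η x‖ ≠ 0 := norm_ne_zero_iff.2 (η_ne hx)
  have hv0 : v 0 = 0 := by
    have h1 := key (Pi.single 1 1)
    simp [wd, η_ne hx] at h1
    exact h1
  have hv1 : ‖v 1‖ * ‖D.η x‖ = 1 := by
    have h1 := key (Pi.single 0 1)
    simp [wd] at h1
    rw [mul_comm]; exact h1
  rw [hasDerivAt_pi] at hd'
  refine ⟨?_, v 1, hd' 1, hv1⟩
  have := hd' 0
  rw [hv0] at this
  exact this

end

end Vale.Agent.P267.H217
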