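import Vale.Agent.P267.H217.Start
import Vale.Agent.P267.H714.Box

/-!
# Leaf theorem: injectivity of the family of solutions (item INJ)
-/

open Set Filter Metric
open scoped Topology Manifold ContDiff

noncomputable section

namespace Vale.Agent.P267.H217

open Vale.Agent.P267.FL Vale.Agent.P267.H759 Vale.Agent.P267.H714

variable {M : Type*} [TopologicalSpace M] [ChartedSpace C2 M] [IsManifold 𝓘(ℂ, C2) ω M] [T2Space M]

theorem ball5_sub : ball (0 : ℂ) 5 ⊆ ball (1 : ℂ) 6 := by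
  intro z hz
  rw [mem_ball_zero_iff] at hz
  rw [mem_ball, dist_eq_norm]
  have := norm_sub_le z 1
  rw [norm_one] at this
  linarith

/-- the solution is determined by `c` -/
theorem sol_unique {D : LeafIn M} {c : ℂ} (hc₀ : ‖c‖ < D.c₀) {E₁ E₂ : ℂ → M} {R : ℝ}
    (hE₁ : MDifferentiableOn 𝓘(ℂ) 𝓘(ℂ, C2) E₁ (ball 1 R))
    (hE₂ : MDifferentiableOn 𝓘(ℂ) 𝓘(ℂ, C2) E₂ (ball 1 R))
    {T₁ T₂ : ℂ → ℂ} (h₁ : T₁ 1 = 1) (h₂ : T₂ 1 = 1)
    (e₁ : ∀ᶠ z in 𝓝 1, E₁ z = D.κ ![c, T₁ z] ∧ HasDerivAt T₁ (1 / D.η ![c, T₁ z]) z)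
    (e₂ : ∀ᶠ z in 𝓝 1, E₂ z = D.κ ![c, T₂ z] ∧ HasDerivAt T₂ (1 / D.η ![c, T₂ z]) z) :
    EqOn E₁ E₂ (ball 1 R) := by
  rcases le_or_gt R 0 with hR | hR
  · intro z hz
    rw [ball_eq_empty.2 hR] at hz
    exact absurd hz (notMem_empty z)
  have hG : ∀ t ∈ Ann (1 / 4), ![c, t] ∈ cusp D.c₀ D.δ D.μ := by
    intro t ht
    refine mem_cusp (by simpa using hc₀) ?_ (by have := ht.2; simp; linarith)
    have := ht.1
    simp only [Matrix.cons_val_one, Matrix.cons_val_fin_one]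
    linarith
  have h3 : T₁ =ᶠ[𝓝 1] T₂ := by
    refine ode_unique (g := fun t => 1 / D.η ![c, t]) (isOpen_Ann (1 / 4)) (diff_eta hG)
      (e₁.mono fun z hz => hz.2) (e₂.mono fun z hz => hz.2) (h₁.trans h₂.symm) ?_
    rw [h₁]
    constructor <;> rw [norm_one] <;> norm_num
  refine eqOn_of_eventuallyEq isOpen_ball (convex_ball _ _).isPreconnected hE₁ hE₂
    (mem_ball_self hR) ?_
  filter_upwards [e₁, e₂, h3] with z h4 h5 h6
  rw [h4.1, h5.1, h6]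

/-- (INJ) -/
theorem inj {D : LeafIn M} {c₁ c₂ : ℂ} (_hc₁ : c₁ ≠ 0) (_hc₂ : c₂ ≠ 0) (hc₁₀ : ‖c₁‖ < D.c₀)
    (hc₂₀ : ‖c₂‖ < D.c₀) {E₁ E₂ : ℂ → M} (hE₁ : Sol D (rho D c₁) E₁ (ball 1 6))
    (hE₂ : Sol D (rho D c₂) E₂ (ball 1 6)) {T₁ T₂ : ℂ → ℂ} (h₁ : T₁ 1 = 1) (h₂ : T₂ 1 = 1)
    (e₁ : ∀ᶠ z in 𝓝 1, E₁ z = D.κ ![c₁, T₁ z] ∧ HasDerivAt T₁ (1 / D.η ![c₁, T₁ z]) z)
    (e₂ : ∀ᶠ z in 𝓝 1, E₂ z = D.κ ![c₂, T₂ z] ∧ HasDerivAt T₂ (1 / D.η ![c₂, T₂ z]) z)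
    {z₁ z₂ : ℂ} (hz₁ : ‖z₁‖ < 5) (hz₂ : ‖z₂‖ < 5) (h : E₁ z₁ = E₂ z₂) : c₁ = c₂ ∧ z₁ = z₂ := by
  have hz₁b : z₁ ∈ ball (0 : ℂ) 5 := by rwa [mem_ball_zero_iff]
  have hz₂b : z₂ ∈ ball (0 : ℂ) 5 := by rwa [mem_ball_zero_iff]
  have s₁ : E₁ 1 = D.κ ![c₁, 1] := by
    have := e₁.self_of_nhds.1
    rwa [h₁] at this
  have s₂ : E₂ 1 = D.κ ![c₂, 1] := by
    have := e₂.self_of_nhds.1
    rwa [h₂] at this
  -- the same leaf
  have hn : ‖c₁‖ = ‖c₂‖ := by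
    refine norm_eq_of_pow_eq D.m_pos ?_
    rw [← (zz_sol hc₁₀ hE₁ s₁ z₁ (ball5_sub hz₁b)).2, ← (zz_sol hc₂₀ hE₂ s₂ z₂ (ball5_sub hz₂b)).2, h]
  have hρ : rho D c₁ = rho D c₂ := by rw [rho, rho, hn]
  rw [hρ] at hE₁
  obtain ⟨ζ, hζ, hrot⟩ := sol_rot (z₁ := z₁) (z₂ := z₂)
    (eventually_of_mem (isOpen_ball.mem_nhds (ball5_sub hz₁b)) fun z hz => hE₁ z hz)
    (eventually_of_mem (isOpen_ball.mem_nhds (ball5_sub hz₂b)) fun z hz => hE₂ z hz) h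
  set A : ℂ → ℂ := fun w => ζ * w + (z₁ - ζ * z₂) with hA
  have hAc : Continuous A := by fun_prop
  have hAz : A z₂ = z₁ := by rw [hA]; ring
  set Q : Set ℂ := ball 0 5 ∩ A ⁻¹' ball 0 5 with hQ
  have hQo : IsOpen Q := isOpen_ball.inter (isOpen_ball.preimage hAc)
  have hAd : ∀ w w', A w - A w' = ζ * (w - w') := by
    intro w w'; rw [hA]; ring
  have hζ0 : ζ ≠ 0 := norm_ne_zero_iff.1 (by rw [hζ]; exact one_ne_zero)
  set p : ℂ := z₂ - ζ⁻¹ * z₁ with hp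
  have hAp : ∀ w, ‖A w‖ = ‖w - p‖ := by
    intro w
    have h3 : A w = ζ * (w - p) := by
      rw [hA, hp]; field_simp; ring
    rw [h3, norm_mul, hζ, one_mul]
  have hQ' : Q = ball 0 5 ∩ ball p 5 := by
    ext w
    rw [hQ, mem_inter_iff, mem_inter_iff, mem_preimage, mem_ball_zero_iff, mem_ball_zero_iff,
      mem_ball (y := w), dist_eq_norm w p, ← hAp w]
  have hQc : Convex ℝ Q := by rw [hQ']; exact (convex_ball _ _).inter (convex_ball _ _)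
  have hz₂Q : z₂ ∈ Q := ⟨hz₂b, by rw [mem_preimage, hAz]; exact hz₁b⟩
  have hEQ : EqOn E₂ (fun w => E₁ (A w)) Q := by
    refine eqOn_of_eventuallyEq hQo hQc.isPreconnected ?_ ?_ hz₂Q ?_
    · exact (hE₂.mono ball5_sub).mdiff.mono inter_subset_left
    · intro w hw
      have h3 : SolAt D (rho D c₂) E₁ (ζ * w + (z₁ - ζ * z₂)) := hE₁ _ (ball5_sub hw.2)
      exact (h3.comp_isometry hζ).diff.mdifferentiableWithinAt
    · have h3 : Tendsto (fun w : ℂ => w - z₂) (𝓝 z₂) (𝓝 0) := by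
        have : ContinuousAt (fun w : ℂ => w - z₂) z₂ := by fun_prop
        simpa [ContinuousAt] using this
      filter_upwards [h3.eventually hrot] with w hw
      have e1 : z₂ + (w - z₂) = w := by ring
      have e2 : z₁ + ζ * (w - z₂) = A w := by rw [hA]; ring
      rw [e1, e2] at hw
      exact hw
  obtain ⟨S₁, hS₁⟩ := compare hc₁₀ hE₁.mdiff h₁ e₁
  obtain ⟨S₂, hS₂⟩ := compare hc₂₀ hE₂.mdiff h₂ e₂
  have hκinj : ∀ x ∈ cusp D.c₀ D.δ D.μ, ∀ x' ∈ cusp D.c₀ D.δ D.μ, D.κ x = D.κ x' → x = x' := by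
    intro x hx x' hx' h
    rw [← D.κi_κ x hx, h, D.κi_κ x' hx']
  have hcmp : ∀ w ∈ Q, 3 / 10 < ‖w‖ → 3 / 10 < ‖A w‖ → c₁ = c₂ ∧ S₂ w = S₁ (A w) := by
    intro w hw h3 h4
    have hw1 : ‖w‖ < 5 := by simpa using hw.1
    have hw2 : ‖A w‖ < 5 := by simpa using hw.2
    obtain ⟨a1, a2, -, -⟩ := hS₂ w (by linarith) hw1
    obtain ⟨b1, b2, -, -⟩ := hS₁ (A w) (by linarith) hw2
    have h5 := hEQ hw
    simp only [] at h5
    rw [a2, b2] at h5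
    have h6 := hκinj _ a1 _ b1 h5
    have h7 := congrFun h6 0
    have h8 := congrFun h6 1
    simp only [Matrix.cons_val_zero, Matrix.cons_val_one] at h7 h8
    exact ⟨h7.symm, h8⟩
  -- a good point
  obtain ⟨w₀, hw₀5, hw₀5', hw₀, hw₀'⟩ : ∃ w₀ : ℂ, ‖w₀‖ < 5 ∧ ‖A w₀‖ < 5 ∧ 3 / 10 < ‖w₀‖ ∧
      3 / 10 < ‖A w₀‖ := by
    have hp10 : ‖p‖ < 10 := by
      have h3 := norm_sub_le z₂ (ζ⁻¹ * z₁)
      rw [norm_mul, norm_inv, hζ, inv_one, one_mul] at h3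
      rw [hp]
      linarith
    rcases lt_or_ge (3 / 5) ‖p‖ with h3 | h3
    · have h4 : ‖p / 2‖ = ‖p‖ / 2 := by rw [norm_div]; simp
      have h5 : ‖A (p / 2)‖ = ‖p‖ / 2 := by
        rw [hAp, ← h4, ← norm_neg]
        congr 1
        ring
      exact ⟨p / 2, by rw [h4]; linarith, by rw [h5]; linarith, by rw [h4]; linarith,
        by rw [h5]; linarith⟩
    · have h4 : ‖(2 : ℂ)‖ = 2 := by simp
      have h5 : ‖A 2‖ ≤ 2 + ‖p‖ := by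
        rw [hAp]
        have := norm_sub_le (2 : ℂ) p
        rwa [h4] at this
      have h6 : 2 - ‖p‖ ≤ ‖A 2‖ := by
        rw [hAp]
        have := norm_sub_norm_le (2 : ℂ) p
        rwa [h4] at this
      exact ⟨2, by rw [h4]; norm_num, by linarith, by rw [h4]; norm_num, by linarith⟩
  have hw₀Q : w₀ ∈ Q := ⟨by rwa [mem_ball_zero_iff], by rwa [mem_preimage, mem_ball_zero_iff]⟩
  have hcc : c₁ = c₂ := (hcmp w₀ hw₀Q hw₀ hw₀').1
  subst hcc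
  refine ⟨rfl, ?_⟩
  have hEE := sol_unique hc₁₀ hE₁.mdiff hE₂.mdiff h₁ h₂ e₁ e₂
  have hSS : ∀ w, 6 / 25 ≤ ‖w‖ → ‖w‖ < 5 → S₁ w = S₂ w := by
    intro w h3 h4
    obtain ⟨a1, a2, -, -⟩ := hS₁ w h3 h4
    obtain ⟨b1, b2, -, -⟩ := hS₂ w h3 h4
    have h5 := hEE (ball5_sub (by rwa [mem_ball_zero_iff] : w ∈ ball (0 : ℂ) 5))
    rw [a2, b2] at h5
    have h6 := congrFun (hκinj _ a1 _ b1 h5) 1
    simpa using h6
  have hfix : ∀ᶠ w in 𝓝 w₀, A w = w := by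
    have hP : IsOpen {w : ℂ | w ∈ Q ∧ 3 / 10 < ‖w‖ ∧ 3 / 10 < ‖A w‖} :=
      hQo.inter ((isOpen_lt continuous_const continuous_norm).inter
        (isOpen_lt continuous_const hAc.norm))
    filter_upwards [hP.mem_nhds ⟨hw₀Q, hw₀, hw₀'⟩] with w hw
    obtain ⟨hwQ, h3, h4⟩ := hw
    have hw1 : ‖w‖ < 5 := by simpa using hwQ.1
    have hw2 : ‖A w‖ < 5 := by simpa using hwQ.2
    have h5 := (hcmp w hwQ h3 h4).2
    rw [hSS (A w) (by linarith) hw2] at h5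
    have h6 := (hS₂ w (by linarith) hw1).2.2.1
    have h7 := (hS₂ (A w) (by linarith) hw2).2.2.1
    have h8 : ‖w - A w‖ ≤ 1 / 50 := by
      have h9 : w - A w = (S₂ (A w) - A w) - (S₂ w - w) := by rw [h5]; ring
      rw [h9]
      exact (norm_sub_le _ _).trans (by linarith)
    -- the segment from `A w` to `w`
    have hseg : ∀ q ∈ segment ℝ (A w) w, 6 / 25 ≤ ‖q‖ ∧ ‖q‖ < 5 := by
      intro q hq
      have h9 : ‖q - A w‖ ≤ ‖w - A w‖ := norm_sub_le_of_mem_segment hq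
      constructor
      · have h10 : ‖A w‖ ≤ ‖q‖ + ‖q - A w‖ := by
          have := norm_sub_le q (q - A w)
          rwa [sub_sub_cancel] at this
        linarith
      · have h10 := (convex_ball (0 : ℂ) 5).segment_subset (x := A w) (y := w)
          (by rwa [mem_ball_zero_iff]) (by rwa [mem_ball_zero_iff]) hq
        rwa [mem_ball_zero_iff] at h10
    have hlip : ‖(S₂ w - w) - (S₂ (A w) - A w)‖ ≤ 1 / 999 * ‖w - A w‖ := by
      refine (convex_segment (A w) w).norm_image_sub_le_of_norm_hasDerivWithin_le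
        (f := fun q => S₂ q - q) (f' := fun q => 1 / D.η ![c₁, S₂ q] - 1) ?_ ?_
        (left_mem_segment ℝ _ _) (right_mem_segment ℝ _ _)
      · intro q hq
        obtain ⟨h9, h10⟩ := hseg q hq
        exact ((hS₂ q h9 h10).2.2.2.sub (hasDerivAt_id q)).hasDerivWithinAt
      · intro q hq
        obtain ⟨h9, h10⟩ := hseg q hq
        exact inv_eta (hS₂ q h9 h10).1
    have h9 : (S₂ w - w) - (S₂ (A w) - A w) = -(w - A w) := by rw [h5]; ring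
    rw [h9, norm_neg] at hlip
    have h10 : ‖w - A w‖ = 0 := by
      have := norm_nonneg (w - A w)
      linarith
    exact (sub_eq_zero.1 (norm_eq_zero.1 h10)).symm
  have hd1 : HasDerivAt A ζ w₀ := by
    rw [hA]
    simpa using ((hasDerivAt_id w₀).const_mul ζ).add_const (z₁ - ζ * z₂)
  have hd2 : HasDerivAt A 1 w₀ := (hasDerivAt_id w₀).congr_of_eventuallyEq hfix
  have hζ1 : ζ = 1 := hd1.unique hd2
  have h3 := hfix.self_of_nhds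
  rw [hA, hζ1] at h3
  linear_combination h3

end Vale.Agent.P267.H217
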