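import Vale.Agent.P267.H217.Cmp

/-!
# Leaf theorem: start of the solutions at `t = 1`, no escape through the outer end of the collar
(items K4, K2 of helper714's list)
-/

open Set Filter Metric
open scoped Topology Manifold ContDiff

noncomputable section

namespace Vale.Agent.P267.H217

open Vale.Agent.P267.FL Vale.Agent.P267.H759 Vale.Agent.P267.H714

variable {M : Type*} [TopologicalSpace M] [ChartedSpace C2 M]

/-- (K4) local solutions of `T' = 1 / η (c, T)`, `T (c, 1) = 1`, jointly holomorphic -/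
theorem start (D : LeafIn M) {c₁ : ℂ} (h : ‖c₁‖ < D.c₀) :
    ∃ r > 0, ∃ T₀ : ℂ → ℂ → ℂ, (∀ c ∈ ball c₁ r, T₀ c 1 = 1 ∧ ∀ z ∈ ball (1 : ℂ) r,
      ![c, T₀ c z] ∈ cusp D.c₀ D.δ D.μ ∧ HasDerivAt (T₀ c) (1 / D.η ![c, T₀ c z]) z) ∧
      DifferentiableOn ℂ (fun p : ℂ × ℂ => T₀ p.1 p.2) (ball c₁ r ×ˢ ball (1 : ℂ) r) := by
  set q₀ : C2 := ![c₁, 1] with hq₀
  have hq : q₀ ∈ cusp D.c₀ D.δ D.μ := mem_cusp (by simpa [hq₀] using h) (by norm_num [hq₀])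
    (by norm_num [hq₀])
  have hopen := isOpen_cusp D.c₀ D.δ D.μ
  have hW : cusp D.c₀ D.δ D.μ ∈ 𝓝 q₀ := hopen.mem_nhds hq
  set θ : C2 → C2 := fun x => ![0, 1 / D.η x] with hθ
  have hθd : DifferentiableOn ℂ θ (cusp D.c₀ D.δ D.μ) := by
    intro x hx
    rw [differentiableWithinAt_pi]
    intro i
    fin_cases i
    · exact differentiableWithinAt_const _
    · have h1 : DifferentiableWithinAt ℂ (fun x => (D.η x)⁻¹) (cusp D.c₀ D.δ D.μ) x :=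
        (D.η_hol x hx).inv (η_ne hx)
      show DifferentiableWithinAt ℂ (fun x => 1 / D.η x) (cusp D.c₀ D.δ D.μ) x
      simpa only [one_div] using h1
  have hθc : ContDiffAt ℂ 2 θ q₀ :=
    (Vale.Agent.P281.MF.analyticAt_of_differentiableOn hopen hθd hq).contDiffAt
  obtain ⟨r, hr, ε, hε, φ, hφ, hφd⟩ := exists_flow hθc hW
  refine ⟨min r ε, lt_min hr hε, fun c z => φ ![c, 1] (z - 1) 1, ?_, ?_⟩
  · intro c hc
    have hcq : (![c, 1] : C2) ∈ ball q₀ r := by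
      rw [mem_ball, dist_eq_norm] at hc ⊢
      refine (pi_norm_lt_iff hr).2 fun i => ?_
      fin_cases i
      · simpa [hq₀] using hc.trans_le (min_le_left _ _)
      · simpa [hq₀] using hr
    obtain ⟨h1, h2⟩ := hφ _ hcq
    have hzero : ∀ z ∈ ball (0 : ℂ) ε, φ ![c, 1] z 0 = c := by
      intro z hz
      have hd : ∀ w ∈ ball (0 : ℂ) ε, HasDerivAt (fun w => φ ![c, 1] w 0) 0 w := by
        intro w hw
        have := (hasDerivAt_pi.1 (h2 w hw).2) 0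
        simpa [hθ] using this
      have h3 := isOpen_ball.is_const_of_deriv_eq_zero (convex_ball (0 : ℂ) ε).isPreconnected
        (fun w hw => (hd w hw).differentiableAt.differentiableWithinAt)
        (fun w hw => (hd w hw).deriv) hz (mem_ball_self hε)
      rw [h3, h1]
      rfl
    have hvec : ∀ z ∈ ball (0 : ℂ) ε, (![c, φ ![c, 1] z 1] : C2) = φ ![c, 1] z := by
      intro z hz
      ext i
      fin_cases i
      · exact (hzero z hz).symm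
      · rfl
    refine ⟨by simp [h1], fun z hz => ?_⟩
    have hz' : z - 1 ∈ ball (0 : ℂ) ε := by
      rw [mem_ball, dist_eq_norm] at hz ⊢
      rw [sub_zero]
      exact hz.trans_le (min_le_right _ _)
    rw [hvec _ hz']
    refine ⟨(h2 _ hz').1, ?_⟩
    have h3 := (hasDerivAt_pi.1 (h2 _ hz').2) 1
    have h4 : HasDerivAt (fun w : ℂ => w - 1) 1 z := (hasDerivAt_id z).sub_const 1
    have h5 := HasDerivAt.scomp z (h := fun w : ℂ => w - 1) h3 h4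
    simpa [hθ, Function.comp_def] using h5
  · have h6 : DifferentiableOn ℂ (fun p : C2 × ℂ => φ p.1 p.2 1) (ball q₀ r ×ˢ ball (0 : ℂ) ε) := by
      intro p hp
      exact (differentiableWithinAt_pi.1 (hφd p hp)) 1
    refine h6.comp (t := ball q₀ r ×ˢ ball (0 : ℂ) ε)
      (f := fun p : ℂ × ℂ => ((![p.1, 1] : C2), p.2 - 1)) ?_ ?_
    · intro p _
      refine DifferentiableWithinAt.prodMk ?_ (differentiableWithinAt_snd.sub_const 1)
      rw [differentiableWithinAt_pi]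
      intro i
      fin_cases i
      · exact differentiableWithinAt_fst
      · exact differentiableWithinAt_const _
    · rintro ⟨c, z⟩ ⟨hc, hz⟩
      simp only at hc hz
      rw [mem_ball, dist_eq_norm] at hc hz
      refine ⟨?_, ?_⟩
      · rw [mem_ball, dist_eq_norm]
        refine (pi_norm_lt_iff hr).2 fun i => ?_
        fin_cases i
        · simpa [hq₀] using hc.trans_le (min_le_left _ _)
        · simpa [hq₀] using hr
      · rw [mem_ball, dist_eq_norm, sub_zero]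
        exact hz.trans_le (min_le_right _ _)

section

variable [IsManifold 𝓘(ℂ, C2) ω M]

theorem norm_eq_of_pow_eq {m : ℕ} (hm : 0 < m) {a b : ℂ} (h : a ^ m = b ^ m) : ‖a‖ = ‖b‖ := by
  have h1 : ‖a‖ ^ m = ‖b‖ ^ m := by rw [← norm_pow, h, norm_pow]
  exact (pow_left_inj₀ (norm_nonneg _) (norm_nonneg _) hm.ne').1 h1

/-- (K2b) -/
theorem zz_sol {D : LeafIn M} {c : ℂ} (hc₀ : ‖c‖ < D.c₀) {R : ℝ}
    {E : ℂ → M} {ρ : ℝ} (hE : Sol D ρ E (ball 1 R)) (h1 : E 1 = D.κ ![c, 1]) :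
    ∀ z ∈ ball (1 : ℂ) R, E z ∈ D.Y ∧ D.zz (E z) = c ^ D.m := by
  intro z hz
  have hR0 : 0 < R := (norm_nonneg _).trans_lt (by rwa [mem_ball, dist_eq_norm] at hz)
  have h1R : (1 : ℂ) ∈ ball (1 : ℂ) R := mem_ball_self hR0
  have h1c : (![c, 1] : C2) ∈ cusp D.c₀ D.δ D.μ :=
    mem_cusp (by simpa using hc₀) (by norm_num) (by norm_num)
  refine ⟨(hE z hz).mem, ?_⟩
  rw [hE.zz_eq isOpen_ball (convex_ball _ _).isPreconnected hz h1R, h1, D.κ_zz _ h1c]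
  rfl

/-- (K2a) a solution which starts at `t = 1` does not move faster than `101/100` -/
theorem speed {D : LeafIn M} {c : ℂ} (hc : c ≠ 0) (hc₀ : ‖c‖ < D.c₀) {R : ℝ}
    {E : ℂ → M} (hE : Sol D (rho D c) E (ball 1 R)) (h1 : E 1 = D.κ ![c, 1]) :
    ∀ z ∈ ball (1 : ℂ) R, ∀ x ∈ cusp D.c₀ D.δ D.μ, E z = D.κ x →
      ‖x 1‖ ≤ 1 + 101 / 100 * ‖z - 1‖ := by
  intro z hz x hx hxz'
  have hxz := hxz'.symm
  have hR0 : 0 < R := (norm_nonneg _).trans_lt (by rwa [mem_ball, dist_eq_norm] at hz)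
  have h1R : (1 : ℂ) ∈ ball (1 : ℂ) R := mem_ball_self hR0
  have h1c : (![c, 1] : C2) ∈ cusp D.c₀ D.δ D.μ :=
    mem_cusp (by simpa using hc₀) (by norm_num) (by norm_num)
  have hzz : ∀ w ∈ ball (1 : ℂ) R, D.zz (E w) = c ^ D.m := fun w hw => (zz_sol hc₀ hE h1 w hw).2
  by_cases hx1 : ‖x 1‖ ≤ 1
  · linarith [norm_nonneg (z - 1)]
  rw [not_le] at hx1
  -- the path
  set γ : ℝ → ℂ := fun τ => 1 + (τ : ℂ) * (z - 1) with hγ
  have hγc : Continuous γ := by fun_prop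
  have hγR : ∀ τ ∈ Icc (0 : ℝ) 1, γ τ ∈ ball (1 : ℂ) R := by
    intro τ hτ
    rw [mem_ball, dist_eq_norm] at hz ⊢
    rw [hγ]
    simp only [add_sub_cancel_left, norm_mul, Complex.norm_real, Real.norm_eq_abs,
      abs_of_nonneg hτ.1]
    nlinarith [norm_nonneg (z - 1), hτ.2]
  have hcont : ∀ w ∈ ball (1 : ℂ) R, ContinuousAt E w := fun w hw => (hE w hw).diff.continuousAt
  set A : Set M := D.κ '' {x | x ∈ cusp D.c₀ D.δ D.μ ∧ 1 < ‖x 1‖} with hA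
  have hAo : IsOpen A := by
    have h2 : IsOpen {x : C2 | x ∈ cusp D.c₀ D.δ D.μ ∧ 1 < ‖x 1‖} :=
      (isOpen_cusp _ _ _).inter (isOpen_lt continuous_const (continuous_apply 1).norm)
    have h3 := (kch D).isOpen_image_symm_of_subset_target h2 (fun x hx => hx.1)
    exact h3
  set S : Set ℝ := {τ | τ ∈ Icc (0 : ℝ) 1 ∧ E (γ τ) ∉ A} with hS
  have hSc : IsClosed S := by
    rw [isClosed_iff_frequently]
    intro τ hτ
    have hτI : τ ∈ Icc (0 : ℝ) 1 := by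
      have : τ ∈ closure (Icc (0 : ℝ) 1) := by
        rw [mem_closure_iff_frequently]
        exact hτ.mono fun y hy => hy.1
      rwa [isClosed_Icc.closure_eq] at this
    refine ⟨hτI, fun hmem => ?_⟩
    have h2 : ∀ᶠ y in 𝓝 τ, E (γ y) ∈ A :=
      ((hcont _ (hγR τ hτI)).comp hγc.continuousAt).eventually (hAo.mem_nhds hmem)
    obtain ⟨y, hy1, hy2⟩ := (hτ.and_eventually h2).exists
    exact hy1.2 hy2
  have hinj : ∀ x ∈ cusp D.c₀ D.δ D.μ, ∀ x' ∈ cusp D.c₀ D.δ D.μ, D.κ x = D.κ x' → x = x' := by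
    intro x hx x' hx' h
    rw [← D.κi_κ x hx, h, D.κi_κ x' hx']
  have h0S : (0 : ℝ) ∈ S := by
    refine ⟨⟨le_rfl, zero_le_one⟩, ?_⟩
    have : γ 0 = 1 := by simp [hγ]
    rw [this, h1]
    rintro ⟨x', ⟨hx', hx1'⟩, he⟩
    have := hinj _ hx' _ h1c he
    rw [this] at hx1'
    simp at hx1'
  have hSb : BddAbove S := ⟨1, fun τ hτ => hτ.1.2⟩
  set τ₀ := sSup S with hτ₀
  have hτS : τ₀ ∈ S := hSc.csSup_mem ⟨0, h0S⟩ hSb
  have hτI := hτS.1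
  have hA' : ∀ τ, τ₀ < τ → τ ≤ 1 → E (γ τ) ∈ A := by
    intro τ h2 h3
    by_contra h4
    have : τ ∈ S := ⟨⟨hτI.1.trans h2.le, h3⟩, h4⟩
    exact absurd (le_csSup hSb this) (not_le.2 h2)
  have hγ1 : γ 1 = z := by simp [hγ]
  have hτ1 : τ₀ < 1 := by
    refine lt_of_le_of_ne hτI.2 fun h => hτS.2 ?_
    rw [h, hγ1]
    exact ⟨x, ⟨hx, hx1⟩, hxz⟩
  -- the last time at `|t| = 1`
  have hcl : E (γ τ₀) ∈ closure (D.κ '' {x | x ∈ cusp D.c₀ D.δ D.μ ∧ 1 ≤ ‖x 1‖}) := by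
    rw [mem_closure_iff_nhds]
    intro V hV
    have h2 : ∀ᶠ τ in 𝓝 τ₀, E (γ τ) ∈ V :=
      ((hcont _ (hγR τ₀ hτI)).comp hγc.continuousAt).eventually hV
    have h3 : ∀ᶠ τ in 𝓝[>] τ₀, E (γ τ) ∈ V := h2.filter_mono nhdsWithin_le_nhds
    have h4 : ∀ᶠ τ in 𝓝[>] τ₀, τ ∈ Ioc τ₀ 1 := Ioc_mem_nhdsGT hτ1
    obtain ⟨τ, h5, h6⟩ := (h3.and h4).exists
    obtain ⟨x', ⟨hx', hx1'⟩, he⟩ := hA' τ h6.1 h6.2
    exact ⟨E (γ τ), h5, ⟨x', ⟨hx', hx1'.le⟩, he⟩⟩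
  obtain ⟨x₀, ⟨hx₀, hx₀1⟩, hx₀e⟩ := D.κ_closed 1 (by norm_num) (by norm_num) _
    (hE _ (hγR τ₀ hτI)).mem hcl
  have hx₀2 : ‖x₀ 1‖ = 1 := by
    refine le_antisymm ?_ hx₀1
    by_contra h2
    exact hτS.2 ⟨x₀, ⟨hx₀, not_le.1 h2⟩, hx₀e⟩
  -- derivative along the rest of the path
  have hpath : ∀ w ∈ segment ℝ (γ τ₀) z, w ∈ ball (1 : ℂ) R ∧
      ∃ x' ∈ cusp D.c₀ D.δ D.μ, E w = D.κ x' := by
    intro w hw
    rw [segment_eq_image_lineMap] at hw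
    obtain ⟨s, hs, rfl⟩ := hw
    have h2 : AffineMap.lineMap (γ τ₀) z s = γ (τ₀ + s * (1 - τ₀)) := by
      rw [AffineMap.lineMap_apply, hγ]
      simp only [vsub_eq_sub, vadd_eq_add, Complex.real_smul]
      push_cast
      ring
    have h3 : τ₀ + s * (1 - τ₀) ∈ Icc (0 : ℝ) 1 := by
      constructor
      · nlinarith [hs.1, hτI.1]
      · nlinarith [hs.2]
    rw [h2]
    refine ⟨hγR _ h3, ?_⟩
    rcases eq_or_lt_of_le hs.1 with h4 | h4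
    · rw [← h4, zero_mul, add_zero]
      exact ⟨x₀, hx₀, hx₀e.symm⟩
    · obtain ⟨x', ⟨hx', -⟩, he⟩ := hA' (τ₀ + s * (1 - τ₀)) (by nlinarith) h3.2
      exact ⟨x', hx', he.symm⟩
  have hder : ∀ w ∈ segment ℝ (γ τ₀) z, ∃ v : ℂ, HasDerivAt (fun w => D.κi (E w) 1) v w ∧
      ‖v‖ ≤ 1000 / 999 := by
    intro w hw
    obtain ⟨hwR, x', hx', he⟩ := hpath w hw
    have h2 : ‖x' 0‖ = ‖c‖ := by
      refine norm_eq_of_pow_eq D.m_pos ?_
      rw [← D.κ_zz x' hx', ← he, hzz w hwR]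
    obtain ⟨-, v, hv, hv1⟩ := kappa_of_sol hc (hE w hwR) hx' he h2
    refine ⟨v, hv, ?_⟩
    have h3 : 999 / 1000 ≤ ‖D.η x'‖ := by
      have h4 := D.η_close x' hx'
      have : ‖(1 : ℂ)‖ ≤ ‖D.η x'‖ + ‖D.η x' - 1‖ := by
        have := norm_sub_le (D.η x') (D.η x' - 1)
        simpa using this
      rw [norm_one] at this
      linarith
    nlinarith [norm_nonneg v]
  have hlip : ‖D.κi (E z) 1 - D.κi (E (γ τ₀)) 1‖ ≤ 1000 / 999 * ‖z - γ τ₀‖ := by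
    choose! v hv hv1 using hder
    exact (convex_segment _ _).norm_image_sub_le_of_norm_hasDerivWithin_le
      (fun w hw => (hv w hw).hasDerivWithinAt) (fun w hw => hv1 w hw)
      (left_mem_segment ℝ _ _) (right_mem_segment ℝ _ _)
  rw [← hxz, D.κi_κ x hx, ← hx₀e, D.κi_κ x₀ hx₀] at hlip
  have h2 : ‖z - γ τ₀‖ ≤ ‖z - 1‖ := by
    have h3 : z - γ τ₀ = (1 - (τ₀ : ℂ)) * (z - 1) := by rw [hγ]; ring
    have h4 : ‖(1 - (τ₀ : ℂ))‖ ≤ 1 := by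
      have : (1 - (τ₀ : ℂ)) = ((1 - τ₀ : ℝ) : ℂ) := by push_cast; ring
      rw [this, Complex.norm_real, Real.norm_eq_abs, abs_of_nonneg (by linarith)]
      linarith [hτI.1]
    rw [h3, norm_mul]
    nlinarith [norm_nonneg (z - 1)]
  have h5 : ‖x 1‖ ≤ ‖x 1 - x₀ 1‖ + ‖x₀ 1‖ := by simpa using norm_add_le (x 1 - x₀ 1) (x₀ 1)
  nlinarith [norm_nonneg (z - 1)]

/-- (K2) a solution which starts at `t = 1` does not reach `|t| > 15/2` -/
theorem no_escape {D : LeafIn M} {c : ℂ} (hc : c ≠ 0) (hc₀ : ‖c‖ < D.c₀) {R : ℝ} (hR : R ≤ 6)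
    {E : ℂ → M} (hE : Sol D (rho D c) E (ball 1 R)) (h1 : E 1 = D.κ ![c, 1]) :
    ∀ z ∈ ball (1 : ℂ) R, E z ∈ {y | y ∈ D.Y ∧ D.zz y = c ^ D.m} \
      D.κ '' {x | x ∈ cusp D.c₀ D.δ D.μ ∧ 15 / 2 < ‖x 1‖} := by
  intro z hz
  refine ⟨zz_sol hc₀ hE h1 z hz, ?_⟩
  rintro ⟨x, ⟨hx, hx1⟩, hxz⟩
  have h2 := speed hc hc₀ hE h1 z hz x hx hxz.symm
  rw [mem_ball, dist_eq_norm] at hz
  linarith

/-- (K4) start of one solution -/
theorem start_sol (D : LeafIn M) {c : ℂ} (hc : c ≠ 0) (hc₀ : ‖c‖ < D.c₀) :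
    ∃ r₀ > 0, ∃ E : ℂ → M, ∃ T₀ : ℂ → ℂ, Sol D (rho D c) E (ball 1 r₀) ∧ T₀ 1 = 1 ∧
      E 1 = D.κ ![c, 1] ∧
      ∀ᶠ z in 𝓝 1, E z = D.κ ![c, T₀ z] ∧ HasDerivAt T₀ (1 / D.η ![c, T₀ z]) z := by
  obtain ⟨r, hr, T, hT, -⟩ := start D hc₀
  obtain ⟨hT1, hT2⟩ := hT c (mem_ball_self hr)
  refine ⟨r, hr, fun z => D.κ ![c, T c z], T c, ?_, hT1, by simp only [hT1], ?_⟩
  · intro z hz
    obtain ⟨h1, h2⟩ := hT2 z hz
    refine sol_kappa hc h1 h2 ?_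
    rw [norm_div, norm_one]
    exact one_div_mul_cancel (norm_ne_zero_iff.2 (η_ne h1))
  · filter_upwards [ball_mem_nhds (1 : ℂ) hr] with z hz
    exact ⟨rfl, (hT2 z hz).2⟩

end

end Vale.Agent.P267.H217
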