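import Vale.Agent.P267.H217.Cmp2
import Vale.Agent.P267.H615.Ext
import Vale.Agent.P267.H714.Ext

/-!
# Leaf theorem: holomorphy of the family at the points `(0, t)` of the zero fibre (item ZERO)
-/

open Set Filter Metric
open scoped Topology Manifold ContDiff

noncomputable section

namespace Vale.Agent.P267.H217

open Vale.Agent.P267.FL Vale.Agent.P267.H759 Vale.Agent.P267.H714

variable {M : Type*} [TopologicalSpace M] [ChartedSpace C2 M] [IsManifold 𝓘(ℂ, C2) ω M] [T2Space M]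

theorem joint_zero {D : LeafIn M} {Ef : ℂ → ℂ → M}
    (hE : ∀ c : ℂ, 0 < ‖c‖ → ‖c‖ < D.c₀ → Good D c (Ef c))
    (h0 : ∀ z : ℂ, 0 < ‖z‖ → ‖z‖ < 5 → Ef 0 z = D.κ ![0, z])
    (hj : ∀ c z : ℂ, 0 < ‖c‖ → ‖c‖ < D.c₀ → z ∈ ball (1 : ℂ) 6 →
      MDifferentiableAt 𝓘(ℂ, C2) 𝓘(ℂ, C2) (fun x : C2 => Ef (x 0) (x 1)) ![c, z])
    {t : ℂ} (ht : 0 < ‖t‖) (ht5 : ‖t‖ < 5) :
    MDifferentiableAt 𝓘(ℂ, C2) 𝓘(ℂ, C2) (fun x : C2 => Ef (x 0) (x 1)) ![0, t] := by
  set s : ℝ := min (1 / 4) (‖t‖ / 2) with hs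
  have hs0 : 0 < s := by positivity
  have hs1 : s ≤ 1 / 4 := min_le_left _ _
  have hst : s < ‖t‖ := (min_le_right _ _).trans_lt (by linarith)
  have hvec : ∀ x : C2, (![x 0, x 1] : C2) = x := by
    intro x; ext i; fin_cases i <;> rfl
  -- comparison with given precision
  have cmp : ∀ ε > 0, ∃ c' > 0, ∀ x : C2, ‖x 0‖ < c' → s ≤ ‖x 1‖ → ‖x 1‖ < 5 →
      D.κi (Ef (x 0) (x 1)) ∈ cusp D.c₀ D.δ D.μ ∧
      Ef (x 0) (x 1) = D.κ (D.κi (Ef (x 0) (x 1))) ∧
      D.κi (Ef (x 0) (x 1)) 0 = x 0 ∧ ‖D.κi (Ef (x 0) (x 1)) 1 - x 1‖ ≤ ε := by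
    intro ε hε
    obtain ⟨c', hc', h⟩ := compare_zero D hs0 hs1 hε
    refine ⟨min c' D.c₀, lt_min hc' D.c₀_pos, fun x hx hx1 hx5 => ?_⟩
    obtain ⟨hG, hcmp⟩ := h (x 0) (hx.trans_le (min_le_left _ _))
    by_cases hx0 : x 0 = 0
    · have hmem : (![0, x 1] : C2) ∈ cusp D.c₀ D.δ D.μ := by
        rw [← hx0]
        exact hG _ ⟨by linarith, by linarith⟩
      rw [hx0, h0 _ (hs0.trans_le hx1) hx5, D.κi_κ _ hmem]
      exact ⟨hmem, rfl, rfl, by simp; exact hε.le⟩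
    · have hgood := hE (x 0) (norm_pos_iff.2 hx0) (hx.trans_le (min_le_right _ _))
      obtain ⟨hsol, T₀, hT1, hT0⟩ := hgood
      obtain ⟨T, hT⟩ := hcmp (Ef (x 0)) hsol.mdiff T₀ hT1 hT0
      obtain ⟨-, a1, a2, a3, -⟩ := hT (x 1) hx1 hx5
      rw [a2, D.κi_κ _ a1]
      exact ⟨a1, rfl, rfl, a3⟩
  set Θ : C2 → M := fun x => Ef (x 0) (x 1) with hΘ
  set g : C2 → C2 := fun x => D.κi (Θ x) with hg
  obtain ⟨c', hc', hcmp⟩ := cmp 1 one_pos
  -- a good neighbourhood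
  have hp0 : Continuous fun x : C2 => ‖x 0‖ := (continuous_apply 0).norm
  have hp1 : Continuous fun x : C2 => ‖x 1‖ := (continuous_apply 1).norm
  set O : Set C2 := {x | ‖x 0‖ < min c' D.c₀} ∩ ({x | s < ‖x 1‖} ∩ {x | ‖x 1‖ < 5}) with hO
  have hOo : IsOpen O := (isOpen_lt hp0 continuous_const).inter
    ((isOpen_lt continuous_const hp1).inter (isOpen_lt hp1 continuous_const))
  have htO : (![0, t] : C2) ∈ O := by
    refine ⟨?_, hst, ht5⟩
    show ‖(![0, t] : C2) 0‖ < _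
    simp only [Matrix.cons_val_zero, norm_zero]
    exact lt_min hc' D.c₀_pos
  have hOc : ∀ x ∈ O, ‖x 0‖ < c' ∧ ‖x 0‖ < D.c₀ ∧ s < ‖x 1‖ ∧ ‖x 1‖ < 5 := by
    rintro x ⟨h1, h2, h3⟩
    exact ⟨lt_of_lt_of_le h1 (min_le_left _ _), lt_of_lt_of_le h1 (min_le_right _ _), h2, h3⟩
  have hgm : ∀ x ∈ O, g x ∈ cusp D.c₀ D.δ D.μ ∧ Θ x = D.κ (g x) ∧ g x 0 = x 0 := by
    intro x hx
    obtain ⟨h1, h2, h3, h4⟩ := hOc x hx
    obtain ⟨a1, a2, a3, -⟩ := hcmp x h1 h3.le h4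
    exact ⟨a1, a2, a3⟩
  have hdiff : ∀ x ∈ O, x 0 ≠ 0 → DifferentiableAt ℂ g x := by
    intro x hx hx0
    obtain ⟨h1, h2, h3, h4⟩ := hOc x hx
    obtain ⟨a1, a2, a3⟩ := hgm x hx
    have hz : x 1 ∈ ball (1 : ℂ) 6 := ball5_sub (by rwa [mem_ball_zero_iff])
    have h5 := hj (x 0) (x 1) (norm_pos_iff.2 hx0) h2 hz
    rw [hvec x] at h5
    have h6 : MDifferentiableAt 𝓘(ℂ, C2) 𝓘(ℂ, C2) D.κi (Θ x) := by
      rw [a2]
      exact (hc_kch D).mdifferentiableAt (kch_mem a1)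
    exact (MDifferentiableAt.comp x h6 h5).differentiableAt
  have hcont : ∀ x ∈ O, ContinuousAt g x := by
    intro x hx
    by_cases hx0 : x 0 = 0
    swap
    · exact (hdiff x hx hx0).continuousAt
    have hgx : g x = x := by
      obtain ⟨h1, h2, h3, h4⟩ := hOc x hx
      have hmem : (![0, x 1] : C2) ∈ cusp D.c₀ D.δ D.μ := by
        have h5 := (hgm x hx).1
        have h6 : g x = D.κi (D.κ ![0, x 1]) := by
          simp only [hg, hΘ]
          rw [hx0, h0 _ (hs0.trans h3) h4]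
        refine ⟨by simpa using D.c₀_pos, ?_, ?_, ?_⟩
        · exact hs0.trans h3
        · show ‖x 1‖ < 8
          linarith
        · show ‖(0 : ℂ)‖ < D.δ * ‖x 1‖ ^ D.μ
          rw [norm_zero]
          exact mul_pos D.δ_pos (pow_pos (hs0.trans h3) _)
      have h7 : g x = ![0, x 1] := by
        simp only [hg, hΘ]
        rw [hx0, h0 _ (hs0.trans h3) h4, D.κi_κ _ hmem]
      rw [h7, ← hx0, hvec x]
    rw [ContinuousAt, hgx, tendsto_pi_nhds]
    intro i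
    fin_cases i
    · have h1 : ∀ᶠ y in 𝓝 x, g y 0 = y 0 := by
        filter_upwards [hOo.mem_nhds hx] with y hy using (hgm y hy).2.2
      exact ((continuous_apply (0 : Fin 2)).tendsto x).congr' (h1.mono fun y hy => hy.symm)
    · show Tendsto (fun y => g y 1) (𝓝 x) (𝓝 (x 1))
      rw [Metric.tendsto_nhds]
      intro ε hε
      obtain ⟨c'', hc'', hcm⟩ := cmp (ε / 2) (by positivity)
      have h1 : ∀ᶠ y : C2 in 𝓝 x, ‖y 0‖ < c'' :=
        hp0.continuousAt.eventually (gt_mem_nhds (by simpa [hx0] using hc''))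
      have h2 : ∀ᶠ y : C2 in 𝓝 x, dist (y 1) (x 1) < ε / 2 :=
        (Metric.tendsto_nhds.1 ((continuous_apply (1 : Fin 2)).tendsto x)) (ε / 2) (by positivity)
      filter_upwards [h1, h2, hOo.mem_nhds hx] with y h3 h4 h5
      obtain ⟨-, -, h6, h7⟩ := hOc y h5
      have h8 := (hcm y h3 h6.le h7).2.2.2
      calc dist (g y 1) (x 1) ≤ dist (g y 1) (y 1) + dist (y 1) (x 1) := dist_triangle _ _ _
        _ < ε / 2 + ε / 2 := by
          refine add_lt_add_of_le_of_lt ?_ h4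
          rw [dist_eq_norm]
          exact h8
        _ = ε := by ring
  have hgd : DifferentiableAt ℂ g (![0, t] : C2) := by
    refine H615.differentiableAt_of_continuous (g := fun x : C2 => x 0) ?_ ?_ ?_ ?_
    · exact Eventually.of_forall fun x => differentiableAt_apply 0 x
    · filter_upwards [hOo.mem_nhds htO] with x hx using hcont x hx
    · filter_upwards [hOo.mem_nhds htO] with x hx using hdiff x hx
    · have h1 : Tendsto (fun w : ℂ => (![w, t] : C2)) (𝓝[≠] 0) (𝓝 ![0, t]) := by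
        have : Continuous fun w : ℂ => (![w, t] : C2) := by
          refine continuous_pi fun i => ?_
          fin_cases i
          · exact continuous_id
          · exact continuous_const
        exact (this.tendsto 0).mono_left nhdsWithin_le_nhds
      refine h1.frequently ?_
      refine Eventually.frequently ?_
      filter_upwards [self_mem_nhdsWithin] with w hw
      simpa using hw
  have h1 : MDifferentiableAt 𝓘(ℂ, C2) 𝓘(ℂ, C2) D.κ (g ![0, t]) :=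
    (hc_kch D).mdifferentiableAt_symm (hgm _ htO).1
  have h2 : MDifferentiableAt 𝓘(ℂ, C2) 𝓘(ℂ, C2) (fun x => D.κ (g x)) (![0, t] : C2) :=
    MDifferentiableAt.comp (![0, t] : C2) h1 hgd.mdifferentiableAt
  refine h2.congr_of_eventuallyEq ?_
  filter_upwards [hOo.mem_nhds htO] with x hx using (hgm x hx).2.1

end Vale.Agent.P267.H217
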